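import Crest.Agent.R242.WugDF

/-!
# R242/DfOf: superseded by `WugDF` (`dfOf hH : DF m`)
-/
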