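import Crest.Agent.R242.Ev1b
import Crest.Agent.R242.EvA

/-! Row 242, I-d, Ev2: the horizontal / vertical derivative is `eva_hv` of `R242/EvA`. -/
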